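import Vale.Agent.P354Z.Skel
import Vale.Agent.P354YT.Cut

/-! There are admissible parameters. -/

open Set Filter Topology

namespace Vale.Agent.P354EZ

open Vale.Agent.P354I (rm rp)
open Vale.Agent.P354R (Del)
open Vale.Agent.P354XE (ka)
open Vale.Agent.P354XA (hor)
open Vale.Agent.P354YT Vale.Agent.P354YA Vale.Agent.P354Z

variable {M a : ℝ}

theorem tb_top (h : |a| < M) : Tendsto (tb M a) atTop atTop := by
  have h0 := (hor h).1
  have hd : ∀ r ∈ Ici (10 * M), HasDerivAt (fun r => tb M a r - 2 * M * Real.log r)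
      (qm M a r - 2 * M * r⁻¹) r := fun r hr =>
    (tb_d h (rp_lt h hr)).sub ((Real.hasDerivAt_log (by linarith [mem_Ici.1 hr])).const_mul _)
  have hm : MonotoneOn (fun r => tb M a r - 2 * M * Real.log r) (Ici (10 * M)) := by
    refine monotoneOn_of_deriv_nonneg (convex_Ici _)
      (fun r hr => (hd r hr).continuousAt.continuousWithinAt)
      (fun r hr => (hd r (interior_subset hr)).differentiableAt.differentiableWithinAt)
      fun r hr => ?_
    have h1 : 10 * M ≤ r := interior_subset hr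
    have h2 : 0 < r := by linarith
    have h3 := Del_pos h (rp_lt h h1)
    have h4 : a ^ 2 < M ^ 2 := sq_lt_sq' (abs_lt.1 h).1 (abs_lt.1 h).2
    rw [(hd r h1).deriv, qm, sub_nonneg, ← div_eq_mul_inv, div_le_div_iff₀ h2 h3, Del]
    nlinarith [mul_pos h0 h0]
  refine tendsto_atTop_mono' _ ?_ (tendsto_atTop_add_const_left _
    (tb M a (10 * M) - 2 * M * Real.log (10 * M))
    (Real.tendsto_log_atTop.const_mul_atTop (by positivity : 0 < 2 * M)))
  filter_upwards [eventually_ge_atTop (10 * M)] with r hr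
  linarith [hm self_mem_Ici hr hr]

theorem tb_lip (h : |a| < M) {x y : ℝ} (hx : 10 * M ≤ x) (hxy : x ≤ y) :
    tb M a y - tb M a x ≤ 1 / 4 * (y - x) :=
  (convex_Ici (10 * M)).image_sub_le_mul_sub_of_deriv_le
    (fun r hr => (tb_d h (rp_lt h hr)).continuousAt.continuousWithinAt)
    (fun r hr => (tb_d h (rp_lt h (interior_subset hr))).differentiableAt.differentiableWithinAt)
    (fun r hr => by
      rw [(tb_d h (rp_lt h (interior_subset hr))).deriv]; exact qm_le h (interior_subset hr))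
    x hx y (hx.trans hxy) hxy

theorem exz (nkm : NKM) : EXZ := by
  intro M a r1 θ θ1 del Rm ha h hr1 hθ hθ1 hd hd'
  have h0 := (hor h).1
  have k0 : 0 < ka M a := (hor h).2.2.2.2.1
  have t1 : Tendsto (fun R => Real.exp (ka M a * tb M a (R - 2))) atTop atTop :=
    Real.tendsto_exp_atTop.comp (((tb_top h).comp
      (tendsto_atTop_add_const_right _ (-2) tendsto_id)).const_mul_atTop k0)
  obtain ⟨R1, a1, a2, a3⟩ := ((t1.eventually_ge_atTop (3 / 2 * θ1)).and
    ((eventually_ge_atTop Rm).and (eventually_ge_atTop (10 * M + 10)))).exists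
  obtain ⟨y, y1, y2⟩ := (((tb_top h).eventually_ge_atTop (tb M a R1 + R1 + 1)).and
    (eventually_ge_atTop R1)).exists
  obtain ⟨Rb, hb, eb⟩ := intermediate_value_Icc y2 (f := tb M a)
    (fun r hr => (tb_d h (rp_lt h (by linarith [hr.1]))).continuousAt.continuousWithinAt)
    (show tb M a R1 + R1 + 1 ∈ _ from ⟨by linarith, y1⟩)
  have b1 := tb_lip h (x := R1) (by linarith) hb.1
  have b2 := tb_lip h (x := Rb) (y := Rb + 1) (by linarith [hb.1]) (by linarith)
  have ok : ∀ Rs ≥ R1 + 1, Ok2 ⟨M, a, r1, R1, 1, Rs, 101 / 100, fun _ => 0, Rb, del⟩ :=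
    fun Rs hs => by
    refine ⟨⟨h, hr1, by simp only; linarith, le_rfl, hs, by norm_num, contDiff_const,
      fun r hr => ?_, fun r hr => ?_, by simp only; linarith [hb.1], hd, hd'⟩, a3⟩
    · have : 0 < r := ((hor h).2.1.trans_lt hr1.1).trans_le hr
      simp only [deriv_const, add_zero, Del]
      exact ⟨one_pos, by nlinarith [mul_pos h0 this]⟩
    · have := qm_le h (r := r) (by simp only at hr; linarith)
      simp only [deriv_const]; linarith
  obtain ⟨κ, hκ⟩ := nkm _ (ok (R1 + 1) le_rfl)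
  exact ⟨R1, a2, Rb, κ, ha, fun Rs hs => ⟨ok Rs hs, hκ⟩, ⟨hθ, hθ1⟩, a1, by simp only; linarith,
    eb.ge, by simp only; linarith⟩

end Vale.Agent.P354EZ
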